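import Vale.Agent.P291.H216.Color

/-!
# The cluster map of a weight with entries `≤ 1` and zero charge
-/

open scoped Classical

namespace Vale.Agent.P291.H216

open Finset

variable {I B : Type*} [Fintype B]

/-- `cl` is a cluster map for the weight `lam`: the boxes with `lam = 1` are attached to boxes
with `lam < 0` at the same vertex, `|lam c|` of them to the box `c`. -/
structure IsCl (vx : B → I) (lam : B → ℤ) (cl : B → B) : Prop where
  vx_cl : ∀ b, vx (cl b) = vx b
  cl_of_le : ∀ b, lam b ≤ 0 → cl b = b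
  lam_cl : ∀ b, lam (cl b) ≤ 0
  card_fib : ∀ c, lam c ≤ 0 → ((fib cl c).card : ℤ) = -lam c + 1

theorem exists_isCl (vx : B → I) (lam : B → ℤ) (h1 : ∀ b, lam b ≤ 1)
    (h0 : ∀ i, ∑ b ∈ univ.filter (fun b => vx b = i), lam b = 0) :
    ∃ cl : B → B, IsCl vx lam cl := by
  -- the equivalences
  have hcard : ∀ i, Fintype.card {b : B // lam b = 1 ∧ vx b = i} =
      Fintype.card (Σ c : {c : B // lam c ≤ 0 ∧ vx c = i}, Fin (-lam c.1).toNat) := by
    intro i
    rw [Fintype.card_sigma]
    simp only [Fintype.card_fin]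
    have hsplit : ∑ b ∈ univ.filter (fun b => vx b = i), lam b =
        (Fintype.card {b : B // lam b = 1 ∧ vx b = i} : ℤ) -
        ∑ c : {c : B // lam c ≤ 0 ∧ vx c = i}, (-lam c.1) := by
      rw [← Finset.sum_filter_add_sum_filter_not (univ.filter (fun b => vx b = i))
        (fun b => lam b = 1)]
      have ea : ∑ b ∈ (univ.filter (fun b => vx b = i)).filter (fun b => lam b = 1), lam b =
          (Fintype.card {b : B // lam b = 1 ∧ vx b = i} : ℤ) := by
        rw [Fintype.card_subtype, Finset.filter_filter]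
        rw [Finset.sum_congr rfl (g := fun _ => (1 : ℤ))
          (fun b hb => (Finset.mem_filter.1 hb).2.2)]
        simp only [Finset.sum_const, nsmul_eq_mul, mul_one, Nat.cast_inj]
        congr 1
        ext b; simp [and_comm]
      have eb : ∑ b ∈ (univ.filter (fun b => vx b = i)).filter (fun b => ¬ lam b = 1), lam b =
          - ∑ c : {c : B // lam c ≤ 0 ∧ vx c = i}, (-lam c.1) := by
        rw [Finset.sum_neg_distrib, neg_neg]
        rw [Finset.sum_subtype (p := fun c => lam c ≤ 0 ∧ vx c = i)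
          ((univ.filter (fun b => vx b = i)).filter (fun b => ¬ lam b = 1))]
        intro b
        simp only [mem_filter, mem_univ, true_and]
        have := h1 b
        constructor
        · rintro ⟨h2, h3⟩; exact ⟨by omega, h2⟩
        · rintro ⟨h2, h3⟩; exact ⟨h3, by omega⟩
      rw [ea, eb]; ring
    rw [h0 i] at hsplit
    have h2 : (∑ c : {c : B // lam c ≤ 0 ∧ vx c = i}, (-lam c.1)) =
        ((∑ c : {c : B // lam c ≤ 0 ∧ vx c = i}, (-lam c.1).toNat : ℕ) : ℤ) := by
      push_cast
      refine Finset.sum_congr rfl fun c _ => ?_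
      have := c.2.1
      omega
    rw [h2] at hsplit
    have h3 : (Fintype.card {b : B // lam b = 1 ∧ vx b = i} : ℤ) =
      ((∑ c : {c : B // lam c ≤ 0 ∧ vx c = i}, (-lam c.1).toNat : ℕ) : ℤ) := by linarith
    exact_mod_cast h3
  let e : ∀ i, {b : B // lam b = 1 ∧ vx b = i} ≃
      (Σ c : {c : B // lam c ≤ 0 ∧ vx c = i}, Fin (-lam c.1).toNat) :=
    fun i => Fintype.equivOfCardEq (hcard i)
  let cl : B → B := fun b =>
    if h : lam b = 1 then (e (vx b) ⟨b, h, rfl⟩).1.1 else b
  have cl_one : ∀ b (h : lam b = 1), cl b = (e (vx b) ⟨b, h, rfl⟩).1.1 := by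
    intro b h; simp only [cl, dif_pos h]
  have cl_ne : ∀ b, lam b ≠ 1 → cl b = b := by
    intro b h; simp only [cl, dif_neg h]
  refine ⟨cl, ?_, ?_, ?_, ?_⟩
  · intro b
    by_cases h : lam b = 1
    · rw [cl_one b h]; exact (e (vx b) ⟨b, h, rfl⟩).1.2.2
    · rw [cl_ne b h]
  · intro b h
    exact cl_ne b (by omega)
  · intro b
    by_cases h : lam b = 1
    · rw [cl_one b h]; exact (e (vx b) ⟨b, h, rfl⟩).1.2.1
    · rw [cl_ne b h]; have := h1 b; omega
  · intro c hc
    let φ : Fin (-lam c).toNat → B := fun k =>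
      ((e (vx c)).symm ⟨⟨c, hc, rfl⟩, k⟩).1
    have hφ : Function.Injective φ := by
      intro k l hkl
      have h2 := Subtype.ext hkl
      have h3 := (e (vx c)).symm.injective h2
      simpa using h3
    have hfib : fib cl c = insert c (univ.image φ) := by
      ext b
      simp only [mem_fib, mem_insert, mem_image, mem_univ, true_and]
      constructor
      · intro hb
        by_cases h : lam b = 1
        · right
          rw [cl_one b h] at hb
          have hv : vx b = vx c := by
            rw [← hb]; exact ((e (vx b) ⟨b, h, rfl⟩).1.2.2).symm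
          have : ∀ (i : I) (hi : vx b = i), (e i ⟨b, h, hi⟩).1.1 = c →
              ∀ (hci : vx c = i), ∃ a : Fin (-lam c).toNat,
                ((e i).symm ⟨⟨c, hc, hci⟩, a⟩).1 = b := by
            intro i hi hbc hci
            rcases hx : e i ⟨b, h, hi⟩ with ⟨⟨c', hc'⟩, k⟩
            rw [hx] at hbc
            simp only at hbc
            subst hbc
            refine ⟨k, ?_⟩
            rw [← hx, Equiv.symm_apply_apply]
          refine this (vx c) hv ?_ rfl
          have aux : ∀ (i : I) (hi : vx b = i), (e i ⟨b, h, hi⟩).1.1 = c := by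
            intro i hi; subst hi; exact hb
          exact aux _ hv
        · left
          rw [cl_ne b h] at hb
          exact hb
      · rintro (rfl | ⟨k, rfl⟩)
        · exact cl_ne _ (by omega)
        · have hp := ((e (vx c)).symm ⟨⟨c, hc, rfl⟩, k⟩).2
          have h := hp.1
          have hv := hp.2
          rw [show φ k = ((e (vx c)).symm ⟨⟨c, hc, rfl⟩, k⟩).1 from rfl, cl_one _ h]
          have aux : ∀ (i : I) (b : B) (hb : lam b = 1) (hi : vx b = i),
              (e (vx b) ⟨b, hb, rfl⟩).1.1 = (e i ⟨b, hb, hi⟩).1.1 := by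
            intro i b hb hi; subst hi; rfl
          rw [aux (vx c) _ h hv]
          have : (⟨((e (vx c)).symm ⟨⟨c, hc, rfl⟩, k⟩).1, h, hv⟩ :
              {b : B // lam b = 1 ∧ vx b = vx c}) = (e (vx c)).symm ⟨⟨c, hc, rfl⟩, k⟩ := rfl
          rw [this, Equiv.apply_symm_apply]
    have hnot : c ∉ univ.image φ := by
      simp only [mem_image, mem_univ, true_and, not_exists]
      intro k hk
      have hp := ((e (vx c)).symm ⟨⟨c, hc, rfl⟩, k⟩).2.1
      have : lam (φ k) = 1 := hp
      rw [hk] at this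
      omega
    rw [hfib, Finset.card_insert_of_notMem hnot, Finset.card_image_of_injective _ hφ]
    simp only [card_univ, Fintype.card_fin]
    push_cast
    omega

section

variable {vx : B → I} {lam : B → ℤ} {cl : B → B}

theorem IsCl.cl_cl (h : IsCl vx lam cl) (b : B) : cl (cl b) = cl b :=
  h.cl_of_le _ (h.lam_cl b)

/-- The sum of the squares of the cluster sizes. -/
theorem IsCl.sum_sq (h : IsCl vx lam cl) (h1 : ∀ b, lam b ≤ 1) (h0 : ∑ b, lam b = 0) :
    ((∑ c, (fib cl c).card ^ 2 : ℕ) : ℤ) = ∑ b, lam b ^ 2 + Fintype.card B := by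
  have e1 : ∀ c, (((fib cl c).card : ℤ)) ^ 2 = lam c ^ 2 - 2 * lam c + 1 := by
    intro c
    by_cases hc : lam c ≤ 0
    · rw [h.card_fib c hc]; ring
    · have hc1 : lam c = 1 := by have := h1 c; omega
      have : fib cl c = ∅ := by
        ext b
        simp only [mem_fib, notMem_empty, iff_false]
        intro hb
        have := h.lam_cl b
        rw [hb] at this; exact hc this
      rw [this, hc1]; norm_num
  push_cast
  rw [Finset.sum_congr rfl fun c _ => e1 c, Finset.sum_add_distrib, Finset.sum_sub_distrib,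
    ← Finset.mul_sum, h0]
  simp

/-- If a colouring is injective on clusters and belongs to a weight of norm at most the norm of
`lam`, it is *full*: the colours of the cluster of `c` are `0, …, |C_c| - 1`. -/
theorem IsCl.full (h : IsCl vx lam cl) (h1 : ∀ b, lam b ≤ 1) (h0 : ∑ b, lam b = 0)
    {g : B → ℕ} (hg : ClInj cl g) {mu : B → ℤ} (hm1 : ∀ b, mu b ≤ 1) (hm0 : ∑ b, mu b = 0)
    (hd : ∀ j : ℕ, 1 ≤ j → (univ.filter fun b => g b = j).card =
      (univ.filter fun b => mu b ≤ -(j : ℤ)).card)
    (hle : ∑ b, mu b ^ 2 ≤ ∑ b, lam b ^ 2) (c : B) :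
    (fib cl c).image g = Finset.range (fib cl c).card := by
  refine cluster_eq hg ?_ c
  have e1 := h.sum_sq h1 h0
  have e2 := two_sum_color hm1 hm0 hd
  have e3 : ((∑ b, (2 * g b + 1) : ℕ) : ℤ) = 2 * (∑ b, (g b : ℤ)) + Fintype.card B := by
    push_cast
    rw [Finset.sum_add_distrib, ← Finset.mul_sum]
    simp
  have : ((∑ b, (2 * g b + 1) : ℕ) : ℤ) ≤ ((∑ c, (fib cl c).card ^ 2 : ℕ) : ℤ) := by
    rw [e1, e3, e2]; linarith
  exact_mod_cast this

/-- A full colouring has the colour class sizes of `lam`. -/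
theorem IsCl.card_color (h : IsCl vx lam cl)
    {g : B → ℕ} (hg : ClInj cl g)
    (hf : ∀ c, (fib cl c).image g = Finset.range (fib cl c).card) (i : I) (j : ℕ) :
    (univ.filter fun b => vx b = i ∧ g b = j).card =
      (univ.filter fun b => vx b = i ∧ lam b ≤ -(j : ℤ)).card := by
  have hinj : Set.InjOn cl ((univ.filter fun b => vx b = i ∧ g b = j : Finset B) : Set B) := by
    intro a ha b hb hab
    have ha' := (Finset.mem_filter.1 ha).2
    have hb' := (Finset.mem_filter.1 hb).2
    exact hg a b hab (ha'.2.trans hb'.2.symm)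
  rw [← Finset.card_image_of_injOn hinj]
  congr 1
  ext c
  simp only [mem_image, mem_filter, mem_univ, true_and]
  constructor
  · rintro ⟨b, ⟨hb1, hb2⟩, rfl⟩
    refine ⟨by rw [h.vx_cl, hb1], ?_⟩
    have hmem : j ∈ (fib cl (cl b)).image g := mem_image.2 ⟨b, by simp, hb2⟩
    rw [hf, mem_range] at hmem
    have := h.card_fib (cl b) (h.lam_cl b)
    omega
  · rintro ⟨hc1, hc2⟩
    have hc0 : lam c ≤ 0 := by omega
    have hmem : j ∈ (fib cl c).image g := by
      rw [hf, mem_range]
      have := h.card_fib c hc0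
      omega
    obtain ⟨b, hb, hbj⟩ := mem_image.1 hmem
    have hbc : cl b = c := by simpa using hb
    exact ⟨b, ⟨by rw [← h.vx_cl b, hbc, hc1], hbj⟩, hbc⟩

/-- The element of colour `j` in the cluster of `c` (or `c` itself). -/
noncomputable def pick (cl : B → B) (g : B → ℕ) (j : ℕ) (c : B) : B :=
  if h : ∃ y, cl y = c ∧ g y = j then h.choose else c

theorem pick_spec {g : B → ℕ} {j : ℕ} {c : B} (h : ∃ y, cl y = c ∧ g y = j) :
    cl (pick cl g j c) = c ∧ g (pick cl g j c) = j := by
  rw [pick, dif_pos h]; exact h.choose_spec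

/-- The permutation exchanging, in every cluster having an element of colour `j`, that element
with the centre of the cluster. -/
noncomputable def wj (cl : B → B) (g : B → ℕ) (j : ℕ) (b : B) : B :=
  if ∃ y, cl y = cl b ∧ g y = j then Equiv.swap (cl b) (pick cl g j (cl b)) b else b

theorem IsCl.cl_wj (h : IsCl vx lam cl) (g : B → ℕ) (j : ℕ) (b : B) :
    cl (wj cl g j b) = cl b := by
  unfold wj
  split_ifs with hy
  · have hp := (pick_spec hy).1
    rw [Equiv.swap_apply_def]
    split_ifs with h2 h3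
    · exact hp
    · exact h.cl_cl b
    · rfl
  · rfl

theorem IsCl.wj_wj (h : IsCl vx lam cl) (g : B → ℕ) (j : ℕ) (b : B) :
    wj cl g j (wj cl g j b) = b := by
  have e := h.cl_wj g j b
  by_cases hy : ∃ y, cl y = cl b ∧ g y = j
  · have e2 : wj cl g j b = Equiv.swap (cl b) (pick cl g j (cl b)) b := by
      unfold wj; rw [if_pos hy]
    have hy' : ∃ y, cl y = cl (wj cl g j b) ∧ g y = j := by rw [e]; exact hy
    have e3 : wj cl g j (wj cl g j b) =
        Equiv.swap (cl (wj cl g j b)) (pick cl g j (cl (wj cl g j b))) (wj cl g j b) := by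
      rw [wj, if_pos hy']
    rw [e3, e, e2, Equiv.swap_apply_self]
  · have e2 : ∀ b', cl b' = cl b → wj cl g j b' = b' := by
      intro b' hb'
      unfold wj; rw [if_neg]; rw [hb']; exact hy
    rw [e2 b rfl, e2 b rfl]

/-- `wj` as a permutation. -/
noncomputable def IsCl.perm (h : IsCl vx lam cl) (g : B → ℕ) (j : ℕ) : Equiv.Perm B where
  toFun := wj cl g j
  invFun := wj cl g j
  left_inv := h.wj_wj g j
  right_inv := h.wj_wj g j

@[simp] theorem IsCl.perm_apply (h : IsCl vx lam cl) (g : B → ℕ) (j : ℕ) (b : B) :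
    h.perm g j b = wj cl g j b := rfl

theorem IsCl.cl_perm (h : IsCl vx lam cl) (g : B → ℕ) (j : ℕ) (b : B) :
    cl (h.perm g j b) = cl b := h.cl_wj g j b

theorem IsCl.vx_perm (h : IsCl vx lam cl) (g : B → ℕ) (j : ℕ) (b : B) :
    vx (h.perm g j b) = vx b := by
  rw [← h.vx_cl (h.perm g j b), h.cl_perm, h.vx_cl]

/-- For a full colouring, the permutation `wj` maps the level set `lam ≤ -j` onto the colour
class of `j`. -/
theorem IsCl.color_perm (h : IsCl vx lam cl)
    {g : B → ℕ} (hg : ClInj cl g)
    (hf : ∀ c, (fib cl c).image g = Finset.range (fib cl c).card) (j : ℕ) (b : B) :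
    g (h.perm g j b) = j ↔ lam b ≤ -(j : ℤ) := by
  rw [IsCl.perm_apply]
  constructor
  · intro hb
    have hcl := h.cl_wj g j b
    have hy : ∃ y, cl y = cl b ∧ g y = j := ⟨wj cl g j b, hcl, hb⟩
    have hp := pick_spec hy
    have e2 : wj cl g j b = Equiv.swap (cl b) (pick cl g j (cl b)) b := by
      unfold wj; rw [if_pos hy]
    have hpick : wj cl g j b = pick cl g j (cl b) :=
      hg _ _ (hcl.trans hp.1.symm) (hb.trans hp.2.symm)
    have hbcl : b = cl b := by
      rw [e2] at hpick
      exact (Equiv.swap (cl b) (pick cl g j (cl b))).injective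
        (hpick.trans (Equiv.swap_apply_left _ _).symm)
    have hmem : j ∈ (fib cl b).image g :=
      mem_image.2 ⟨wj cl g j b, by rw [mem_fib, hcl, ← hbcl], hb⟩
    have hb0 : lam b ≤ 0 := by rw [hbcl]; exact h.lam_cl b
    rw [hf, mem_range] at hmem
    have := h.card_fib b hb0
    omega
  · intro hb
    have hb0 : lam b ≤ 0 := by omega
    have hclb := h.cl_of_le b hb0
    have hmem : j ∈ (fib cl b).image g := by
      rw [hf, mem_range]
      have := h.card_fib b hb0
      omega
    obtain ⟨y, hy, hyj⟩ := mem_image.1 hmem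
    have hy' : ∃ y, cl y = cl b ∧ g y = j := ⟨y, by rw [hclb]; simpa using hy, hyj⟩
    have e2 : wj cl g j b = Equiv.swap (cl b) (pick cl g j (cl b)) b := by
      unfold wj; rw [if_pos hy']
    have e3 : Equiv.swap (cl b) (pick cl g j (cl b)) b = pick cl g j (cl b) := by
      have := Equiv.swap_apply_left (cl b) (pick cl g j (cl b))
      rwa [show Equiv.swap (cl b) (pick cl g j (cl b)) (cl b) =
        Equiv.swap (cl b) (pick cl g j (cl b)) b by rw [hclb]] at this
    rw [e2, e3]
    exact (pick_spec hy').2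

/-- A full colouring exists. -/
theorem IsCl.exists_full (h : IsCl vx lam cl) :
    ∃ g : B → ℕ, ClInj cl g ∧ ∀ c, (fib cl c).image g = Finset.range (fib cl c).card := by
  let e : ∀ c, (fib cl c : Finset B) ≃ Fin (fib cl c).card := fun c => (fib cl c).equivFin
  let g : B → ℕ := fun b => (e (cl b) ⟨b, by simp⟩ : ℕ)
  have hgc : ∀ b c (hb : cl b = c), g b = (e c ⟨b, by simp [hb]⟩ : ℕ) := by
    intro b c hb; subst hb; rfl
  refine ⟨g, ?_, ?_⟩
  · intro a b hab hgab
    rw [hgc a (cl b) hab, hgc b (cl b) rfl] at hgab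
    have := (e (cl b)).injective (Fin.ext hgab)
    exact congrArg Subtype.val this
  · intro c
    ext j
    simp only [mem_image, mem_fib, mem_range]
    constructor
    · rintro ⟨b, hb, rfl⟩
      rw [hgc b c hb]; exact (e c _).2
    · intro hj
      refine ⟨((e c).symm ⟨j, hj⟩).1, ?_, ?_⟩
      · exact mem_fib.1 ((e c).symm ⟨j, hj⟩).2
      · have hh : cl ((e c).symm ⟨j, hj⟩).1 = c := mem_fib.1 ((e c).symm ⟨j, hj⟩).2
        rw [hgc _ c hh]
        simp

end

end Vale.Agent.P291.H216
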