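import Vale.Agent.P291.Core2
import Vale.Agent.P291.H216.Cluster

/-!
# P291: products of `e` over a tuple of sets whose complements form a partition
-/

set_option linter.unusedSectionVars false

open MvPolynomial

namespace Vale.Agent.P291

namespace H216

/-- A colouring extended by `0` to `none`. -/
def gO {B : Type*} (g : B → ℕ) : Option B → ℕ := fun o => o.elim 0 g

@[simp] theorem gO_none {B : Type*} (g : B → ℕ) : gO g none = 0 := rfl
@[simp] theorem gO_some {B : Type*} (g : B → ℕ) (b : B) : gO g (some b) = g b := rfl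

section

variable {B : Type*} [Fintype B] [DecidableEq B]

theorem lamV_sub_ext (V : Finset (Option B)) (r : B) (s : Option B) :
    lamV V r - ext (lamV V) s =
      (if some r ∈ V then 1 else 0) - (if s ∈ V then 1 else 0) := by
  cases s with
  | none => simp [ext, lamV]
  | some b => simp [ext, lamV]

theorem lamV_sub (V : Finset (Option B)) (r s : B) :
    lamV V r - lamV V s =
      (if some r ∈ V then 1 else 0) - (if some s ∈ V then 1 else 0) := by
  simp [lamV]

theorem ind_toNat (p q : Prop) [Decidable p] [Decidable q] :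
    ((if p then (1 : ℤ) else 0) - (if q then 1 else 0)).toNat = if p ∧ ¬ q then 1 else 0 := by
  by_cases hp : p <;> by_cases hq : q <;> simp [hp, hq]

/-- exponents for a tuple whose complements form a partition -/
theorem sum_ind {k : ℕ} (V : Fin k → Finset (Option B)) (jj : Option B → Fin k)
    (hV : ∀ o j, o ∉ V j ↔ jj o = j) (r s : Option B) :
    ∑ j, (if r ∈ V j ∧ ¬ s ∈ V j then 1 else 0) = if jj r ≠ jj s then 1 else 0 := by
  have : ∀ j, (r ∈ V j ∧ ¬ s ∈ V j) ↔ (jj s = j ∧ jj r ≠ jj s) := by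
    intro j
    constructor
    · rintro ⟨h1, h2⟩
      have h3 := (hV s j).1 h2
      refine ⟨h3, fun h4 => ?_⟩
      exact (hV r j).2 (h4.trans h3) h1
    · rintro ⟨h1, h2⟩
      refine ⟨?_, (hV s j).2 h1⟩
      by_contra h3
      exact h2 (((hV r j).1 h3).trans h1.symm)
  simp only [this]
  by_cases h : jj r ≠ jj s
  · simp [h]
  · simp [h]

end

variable {I E B Λ : Type*} [Fintype E] [DecidableEq I] [Fintype B] [DecidableEq B] [CommRing Λ]
  [IsDomain Λ]
variable (Q : QD I E B Λ)

theorem toK_mul (f g : SS B Λ) : toK (f * g) = toK f * toK g := map_mul _ _ _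

theorem toK_inj {f g : SS B Λ} : toK f = toK g ↔ f = g :=
  (IsFractionRing.injective (SS B Λ) (KK B Λ)).eq_iff

theorem toK_eq_zero {f : SS B Λ} : toK f = 0 ↔ f = 0 :=
  map_eq_zero_iff _ (IsFractionRing.injective (SS B Λ) (KK B Λ))

theorem prod_rho {k : ℕ} (V : Fin k → Finset (Option B)) (jj : Option B → Fin k)
    (hV : ∀ o j, o ∉ V j ↔ jj o = j) (g : B → ℕ)
    (hg : ∀ o o', gO g o = gO g o' ↔ jj o = jj o') :
    ∏ j, Q.rho (lamV (V j)) = Q.numG g := by
  unfold QD.rho QD.numG
  rw [Finset.prod_comm, Finset.prod_filter]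
  refine Finset.prod_congr rfl fun p _ => ?_
  rw [Finset.prod_pow_eq_pow_sum]
  have e1 : ∑ j, (lamV (V j) p.2.1 - ext (lamV (V j)) p.2.2).toNat =
      if jj (some p.2.1) ≠ jj p.2.2 then 1 else 0 := by
    rw [← sum_ind V jj hV]
    refine Finset.sum_congr rfl fun j _ => ?_
    rw [lamV_sub_ext, ind_toNat]
  rw [e1]
  have e2 : (g p.2.1 ≠ p.2.2.elim 0 g) ↔ jj (some p.2.1) ≠ jj p.2.2 := by
    rw [not_iff_not]; exact hg (some p.2.1) p.2.2
  by_cases h : jj (some p.2.1) ≠ jj p.2.2
  · rw [if_pos h, if_pos (e2.2 h), pow_one]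
  · rw [if_neg h, if_neg (fun h' => h (e2.1 h')), pow_zero]

theorem prod_den {k : ℕ} (V : Fin k → Finset (Option B)) (jj : Option B → Fin k)
    (hV : ∀ o j, o ∉ V j ↔ jj o = j) (g : B → ℕ)
    (hg : ∀ o o', gO g o = gO g o' ↔ jj o = jj o') :
    ∏ j, Q.den (lamV (V j)) = Q.denG g := by
  unfold QD.den QD.denG
  rw [Finset.prod_comm, Finset.prod_filter]
  refine Finset.prod_congr rfl fun p _ => ?_
  rw [Finset.prod_pow_eq_pow_sum]
  have e1 : ∑ j, (lamV (V j) p.1 - lamV (V j) p.2).toNat =
      if jj (some p.1) ≠ jj (some p.2) then 1 else 0 := by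
    rw [← sum_ind V jj hV]
    refine Finset.sum_congr rfl fun j _ => ?_
    rw [lamV_sub, ind_toNat]
  rw [e1]
  have e2 : (g p.1 ≠ g p.2) ↔ jj (some p.1) ≠ jj (some p.2) := by
    rw [not_iff_not]; exact hg (some p.1) (some p.2)
  by_cases h : jj (some p.1) ≠ jj (some p.2)
  · rw [if_pos h, if_pos (e2.2 h), pow_one]
  · rw [if_neg h, if_neg (fun h' => h (e2.1 h')), pow_zero]

/-- The product of the `e(lamV (V j))` over a tuple of sets whose complements form a partition of
`Option B` with the same blocks as the colouring `g` is `kap g`. -/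
theorem prod_e {k : ℕ} (V : Fin k → Finset (Option B)) (jj : Option B → Fin k)
    (hV : ∀ o j, o ∉ V j ↔ jj o = j) (g : B → ℕ)
    (hg : ∀ o o', gO g o = gO g o' ↔ jj o = jj o') :
    ∏ j, Q.e (lamV (V j)) = Q.kap g := by
  unfold QD.e QD.kap
  rw [Finset.prod_div_distrib, ← map_prod, ← map_prod, prod_rho Q V jj hV g hg,
    prod_den Q V jj hV g hg]

/-- The product of the `x_r - x_s` over ordered pairs of distinct boxes at the same vertex and
with the same colour. -/
noncomputable def PD (g : B → ℕ) : SS B Λ :=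
  ∏ p ∈ Q.Prs.filter (fun p => p.1 ≠ p.2 ∧ g p.1 = g p.2), (X p.1 - X p.2 : SS B Λ)

theorem D_eq (g : B → ℕ) : Q.D = PD Q g * Q.denG g := by
  unfold QD.D PD QD.denG
  rw [← Finset.prod_filter_mul_prod_filter_not (Q.Prs.filter fun p => p.1 ≠ p.2)
    (fun p => g p.1 = g p.2), Finset.filter_filter, Finset.filter_filter]
  congr 1
  refine Finset.prod_congr ?_ fun _ _ => rfl
  refine Finset.filter_congr fun p _ => ?_
  constructor
  · exact fun h => h.2
  · exact fun h => ⟨fun h' => h (by rw [h']), h⟩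

theorem X_sub_ne_zero {r s : B} (h : r ≠ s) : (X r - X s : SS B Λ) ≠ 0 := by
  rw [sub_ne_zero]; exact fun h' => h (X_injective h')

theorem denG_ne_zero (g : B → ℕ) : Q.denG g ≠ 0 := by
  unfold QD.denG
  rw [Finset.prod_ne_zero_iff]
  intro p hp
  refine X_sub_ne_zero fun h => ?_
  exact (Finset.mem_filter.1 hp).2 (by rw [h])

/-- `D * kap_g` as a polynomial. -/
noncomputable def PG (g : B → ℕ) : SS B Λ := PD Q g * Q.numG g

theorem D_mul_kap (g : B → ℕ) : toK Q.D * Q.kap g = toK (PG Q g) := by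
  have h : toK (Q.denG g) ≠ 0 := by
    rw [Ne, toK_eq_zero]
    exact denG_ne_zero Q g
  rw [D_eq Q g, PG, QD.kap, toK_mul, toK_mul]
  field_simp

end H216

end Vale.Agent.P291
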