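import Mathlib

/-!
# Colour counting for clusters (section 5 of the P291 blueprint)

Pure combinatorics, no algebra: `B` is the finite set of boxes, `g : B → ℕ` a colouring,
`cl : B → B` the cluster map.
-/

open scoped Classical

namespace Vale.Agent.P291.H216

open Finset

/-- The sum of the first odd numbers is the least possible. -/
theorem sq_card_le_sum (s : Finset ℕ) : s.card ^ 2 ≤ ∑ x ∈ s, (2 * x + 1) := by
  induction s using Finset.induction_on_max with
  | empty => simp
  | insert a s ha ih =>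
    have hnot : a ∉ s := fun h => lt_irrefl _ (ha a h)
    rw [Finset.card_insert_of_notMem hnot, Finset.sum_insert hnot]
    have hc : s.card ≤ a := by
      have : s ⊆ Finset.range a := fun x hx => Finset.mem_range.2 (ha x hx)
      simpa using Finset.card_le_card this
    nlinarith [ih, hc]

theorem eq_range_of_sum_le (s : Finset ℕ) (h : ∑ x ∈ s, (2 * x + 1) ≤ s.card ^ 2) :
    s = Finset.range s.card := by
  induction s using Finset.induction_on_max with
  | empty => simp
  | insert a s ha ih =>
    have hnot : a ∉ s := fun h => lt_irrefl _ (ha a h)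
    rw [Finset.card_insert_of_notMem hnot, Finset.sum_insert hnot] at h
    rw [Finset.card_insert_of_notMem hnot]
    have hc : s.card ≤ a := by
      have : s ⊆ Finset.range a := fun x hx => Finset.mem_range.2 (ha x hx)
      simpa using Finset.card_le_card this
    have h1 := sq_card_le_sum s
    have ha' : a = s.card := by nlinarith
    have h2 : ∑ x ∈ s, (2 * x + 1) ≤ s.card ^ 2 := by nlinarith
    have h3 := ih h2
    subst ha'
    rw [Finset.range_add_one]
    congr 1

variable {B : Type*} [Fintype B]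

/-- The cluster of `c`. -/
noncomputable def fib (cl : B → B) (c : B) : Finset B := Finset.univ.filter fun b => cl b = c

@[simp] theorem mem_fib {cl : B → B} {c b : B} : b ∈ fib cl c ↔ cl b = c := by
  simp [fib]

theorem sum_fib {M : Type*} [AddCommMonoid M] (cl : B → B) (f : B → M) :
    ∑ c, ∑ b ∈ fib cl c, f b = ∑ b, f b := by
  simp only [fib]
  exact Finset.sum_fiberwise _ _ _

/-- `g` is injective on every cluster. -/
def ClInj (cl : B → B) (g : B → ℕ) : Prop := ∀ a b, cl a = cl b → g a = g b → a = b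

theorem ClInj.injOn {cl : B → B} {g : B → ℕ} (h : ClInj cl g) (c : B) :
    Set.InjOn g (fib cl c : Set B) := by
  intro a ha b hb hab
  have ha' : cl a = c := by simpa using ha
  have hb' : cl b = c := by simpa using hb
  exact h a b (ha'.trans hb'.symm) hab

theorem sum_image_fib {cl : B → B} {g : B → ℕ} (h : ClInj cl g) (c : B) :
    ∑ x ∈ (fib cl c).image g, (2 * x + 1) = ∑ b ∈ fib cl c, (2 * g b + 1) :=
  Finset.sum_image (h.injOn c)

theorem card_image_fib {cl : B → B} {g : B → ℕ} (h : ClInj cl g) (c : B) :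
    ((fib cl c).image g).card = (fib cl c).card :=
  Finset.card_image_of_injOn (h.injOn c)

theorem cluster_le {cl : B → B} {g : B → ℕ} (h : ClInj cl g) :
    ∑ c, (fib cl c).card ^ 2 ≤ ∑ b, (2 * g b + 1) := by
  rw [← sum_fib cl (fun b => 2 * g b + 1)]
  refine Finset.sum_le_sum fun c _ => ?_
  rw [← sum_image_fib h, ← card_image_fib h]
  exact sq_card_le_sum _

theorem cluster_eq {cl : B → B} {g : B → ℕ} (h : ClInj cl g)
    (hle : ∑ b, (2 * g b + 1) ≤ ∑ c, (fib cl c).card ^ 2) (c : B) :
    (fib cl c).image g = Finset.range (fib cl c).card := by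
  have key : ∀ c, (fib cl c).card ^ 2 ≤ ∑ b ∈ fib cl c, (2 * g b + 1) := fun c => by
    rw [← sum_image_fib h, ← card_image_fib h]
    exact sq_card_le_sum _
  have heq : ∀ c ∈ (Finset.univ : Finset B),
      (fib cl c).card ^ 2 = ∑ b ∈ fib cl c, (2 * g b + 1) := by
    rw [← Finset.sum_eq_sum_iff_of_le fun c _ => key c]
    rw [sum_fib cl (fun b => 2 * g b + 1)]
    exact le_antisymm (cluster_le h) hle
  have h2 := heq c (Finset.mem_univ _)
  rw [← sum_image_fib h, ← card_image_fib h] at h2
  have := eq_range_of_sum_le _ h2.ge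
  rwa [card_image_fib h] at this

/-- Twice the sum of the colours is the norm. -/
theorem two_sum_color {g : B → ℕ} {μ : B → ℤ} (h1 : ∀ b, μ b ≤ 1) (h0 : ∑ b, μ b = 0)
    (hd : ∀ j : ℕ, 1 ≤ j → (univ.filter fun b => g b = j).card =
      (univ.filter fun b => μ b ≤ -(j : ℤ)).card) :
    2 * (∑ b, (g b : ℤ)) = ∑ b, μ b ^ 2 := by
  obtain ⟨M, hM⟩ : ∃ M : ℕ, ∀ b, g b ≤ M ∧ -μ b ≤ M := by
    refine ⟨∑ b, (g b + (-μ b).toNat), fun b => ?_⟩
    have h := Finset.single_le_sum (f := fun b => g b + (-μ b).toNat)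
      (fun _ _ => Nat.zero_le _) (Finset.mem_univ b)
    have := Int.self_le_toNat (-μ b)
    omega
  have e1 : ∑ b, (g b : ℤ) = ∑ j ∈ range (M + 1), (j : ℤ) *
      ((univ.filter fun b => g b = j).card : ℤ) := by
    have : ∀ b, (g b : ℤ) = ∑ j ∈ range (M + 1), if g b = j then (j : ℤ) else 0 := by
      intro b
      rw [Finset.sum_ite_eq]
      simp [(hM b).1]
    rw [Finset.sum_congr rfl fun b _ => this b, Finset.sum_comm]
    refine Finset.sum_congr rfl fun j _ => ?_
    rw [← Finset.sum_filter, Finset.sum_const, nsmul_eq_mul, mul_comm]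
  have e2 : ∑ j ∈ range (M + 1), (j : ℤ) * ((univ.filter fun b => g b = j).card : ℤ) =
      ∑ j ∈ range (M + 1), (j : ℤ) * ((univ.filter fun b => μ b ≤ -(j : ℤ)).card : ℤ) := by
    refine Finset.sum_congr rfl fun j _ => ?_
    rcases Nat.eq_zero_or_pos j with rfl | hj
    · simp
    · rw [hd j hj]
  have e3 : ∑ j ∈ range (M + 1), (j : ℤ) * ((univ.filter fun b => μ b ≤ -(j : ℤ)).card : ℤ)
      = ∑ b, ∑ j ∈ range (M + 1), if μ b ≤ -(j : ℤ) then (j : ℤ) else 0 := by
    rw [Finset.sum_comm]
    refine Finset.sum_congr rfl fun j _ => ?_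
    rw [← Finset.sum_filter, Finset.sum_const, nsmul_eq_mul, mul_comm]
  have e4 : ∀ b, 2 * (∑ j ∈ range (M + 1), if μ b ≤ -(j : ℤ) then (j : ℤ) else 0) =
      μ b ^ 2 - μ b := by
    intro b
    by_cases hb : μ b ≤ 0
    · obtain ⟨n, hn⟩ : ∃ n : ℕ, μ b = -(n : ℤ) := ⟨(-μ b).toNat, by omega⟩
      have hnM : n ≤ M := by have := (hM b).2; omega
      have : ∑ j ∈ range (M + 1), (if μ b ≤ -(j : ℤ) then (j : ℤ) else 0) =
          ∑ j ∈ range (n + 1), (j : ℤ) := by
        rw [← Finset.sum_filter]
        refine Finset.sum_congr ?_ fun _ _ => rfl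
        ext j
        simp only [mem_filter, mem_range, hn]
        omega
      rw [this, hn]
      have gauss : ∀ n : ℕ, 2 * ∑ j ∈ range (n + 1), (j : ℤ) = (n : ℤ) ^ 2 + n := by
        intro n
        induction n with
        | zero => simp
        | succ n ih => rw [Finset.sum_range_succ, mul_add, ih]; push_cast; ring
      rw [gauss]; ring
    · have hb1 : μ b = 1 := by have := h1 b; omega
      rw [hb1]
      have : ∀ j ∈ range (M + 1), (if (1 : ℤ) ≤ -(j : ℤ) then (j : ℤ) else 0) = 0 := by
        intro j _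
        rw [if_neg (by omega)]
      rw [Finset.sum_congr rfl this]; simp
  rw [e1, e2, e3, Finset.mul_sum, Finset.sum_congr rfl fun b _ => e4 b,
    Finset.sum_sub_distrib, h0, sub_zero]

end Vale.Agent.P291.H216
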