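import Vale.Agent.P291.H216.Cluster

/-!
# The polynomials `D * kap_g` and their restriction to a cluster diagonal
-/

open scoped Classical

namespace Vale.Agent.P291.H216

open Finset MvPolynomial

variable {I B E : Type*} {Λ : Type*} [CommRing Λ]

/-- The variable attached to a point of `Option B`; `none` has the variable `0`. -/
noncomputable def xx (Λ : Type*) [CommRing Λ] : Option B → MvPolynomial B Λ
  | none => 0
  | some b => X b

@[simp] theorem xx_none : xx (B := B) Λ none = 0 := rfl
@[simp] theorem xx_some (b : B) : xx Λ (some b) = X b := rfl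

/-- The linear form of the arrow `a` (mass `m`) between `r` and `s`. -/
noncomputable def xiP (m : Λ) (r s : Option B) : MvPolynomial B Λ := xx Λ s - xx Λ r + C m

/-- A colouring extended by `0` to `none`. -/
def gO (g : B → ℕ) : Option B → ℕ
  | none => 0
  | some b => g b

@[simp] theorem gO_none (g : B → ℕ) : gO g none = 0 := rfl
@[simp] theorem gO_some (g : B → ℕ) (b : B) : gO g (some b) = g b := rfl

theorem gO_comp (g : B → ℕ) (σ : B → B) (r : Option B) :
    gO (g ∘ σ) r = gO g (Option.map σ r) := by
  cases r <;> rfl

theorem rename_xx (f : B → B) (r : Option B) :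
    rename f (xx Λ r) = xx Λ (Option.map f r) := by
  cases r <;> simp

theorem rename_xiP (f : B → B) (m : Λ) (r s : Option B) :
    rename f (xiP m r s) = xiP m (Option.map f r) (Option.map f s) := by
  simp [xiP, rename_xx]

variable [Fintype B] [Fintype E]

/-- The product of the `x_r - x_s` over ordered pairs of distinct boxes at the same vertex and
with the same colour. -/
noncomputable def PD (Λ : Type*) [CommRing Λ] (vx : B → I) (g : B → ℕ) : MvPolynomial B Λ :=
  ∏ p ∈ univ.filter (fun p : B × B => p.1 ≠ p.2 ∧ vx p.1 = vx p.2 ∧ g p.1 = g p.2),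
    (X p.1 - X p.2)

/-- The product of all forms between points of different colours. -/
noncomputable def PX (vx : B → I) (src tgt : E → Option I) (t : E → Λ) (g : B → ℕ) :
    MvPolynomial B Λ :=
  ∏ a : E, ∏ q ∈ univ.filter (fun q : Option B × Option B =>
      Option.map vx q.1 = src a ∧ Option.map vx q.2 = tgt a ∧ gO g q.1 ≠ gO g q.2),
    xiP (t a) q.1 q.2

/-- `D * kap_g`. -/
noncomputable def PG (vx : B → I) (src tgt : E → Option I) (t : E → Λ) (g : B → ℕ) :
    MvPolynomial B Λ := PD Λ vx g * PX vx src tgt t g

theorem rename_PG_comp (vx : B → I) (src tgt : E → Option I) (t : E → Λ) (g : B → ℕ)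
    (σ : Equiv.Perm B) (hσ : ∀ b, vx (σ b) = vx b) :
    rename σ (PG vx src tgt t (g ∘ σ)) = PG vx src tgt t g := by
  have hv : ∀ r : Option B, Option.map vx (Option.map σ r) = Option.map vx r := by
    intro r; cases r <;> simp [hσ]
  unfold PG
  rw [map_mul]
  congr 1
  · unfold PD
    rw [map_prod]
    refine Finset.prod_bij (fun p _ => (σ p.1, σ p.2)) ?_ ?_ ?_ ?_
    · intro p hp
      simp only [mem_filter, mem_univ, true_and, Function.comp] at hp ⊢
      refine ⟨fun h => hp.1 (σ.injective h), by rw [hσ, hσ]; exact hp.2.1, hp.2.2⟩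
    · intro p _ q _ h
      have h1 := congrArg Prod.fst h
      have h2 := congrArg Prod.snd h
      exact Prod.ext (σ.injective h1) (σ.injective h2)
    · intro q hq
      simp only [mem_filter, mem_univ, true_and] at hq
      refine ⟨(σ.symm q.1, σ.symm q.2), ?_, by simp⟩
      simp only [mem_filter, mem_univ, true_and, Function.comp, Equiv.apply_symm_apply]
      refine ⟨fun h => hq.1 (σ.symm.injective h), ?_, hq.2.2⟩
      rw [← hσ (σ.symm q.1), ← hσ (σ.symm q.2)]; simpa using hq.2.1
    · intro p _
      simp
  · unfold PX
    rw [map_prod]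
    refine Finset.prod_congr rfl fun a _ => ?_
    rw [map_prod]
    refine Finset.prod_bij (fun p _ => (Option.map σ p.1, Option.map σ p.2)) ?_ ?_ ?_ ?_
    · intro p hp
      simp only [mem_filter, mem_univ, true_and, gO_comp] at hp ⊢
      rw [hv, hv]; exact hp
    · intro p _ q _ h
      have h1 := congrArg Prod.fst h
      have h2 := congrArg Prod.snd h
      exact Prod.ext (Option.map_injective σ.injective h1) (Option.map_injective σ.injective h2)
    · intro q hq
      simp only [mem_filter, mem_univ, true_and] at hq
      have hh : ∀ r : Option B, Option.map σ (Option.map σ.symm r) = r := by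
        intro r; cases r <;> simp
      refine ⟨(Option.map σ.symm q.1, Option.map σ.symm q.2), ?_, by simp only [hh]⟩
      simp only [mem_filter, mem_univ, true_and, gO_comp, hh]
      refine ⟨?_, ?_, hq.2.2⟩
      · rw [← hv (Option.map σ.symm q.1), hh]; exact hq.1
      · rw [← hv (Option.map σ.symm q.2), hh]; exact hq.2.1
    · intro p _
      exact rename_xiP σ (t a) p.1 p.2

/-- Restriction to the diagonal of the cluster map kills colourings that are not injective on
clusters. -/
theorem psi_PG_eq_zero {vx : B → I} {lam : B → ℤ} {cl : B → B} (h : IsCl vx lam cl)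
    (src tgt : E → Option I) (t : E → Λ) {g : B → ℕ} (hg : ¬ ClInj cl g) :
    rename cl (PG vx src tgt t g) = 0 := by
  unfold ClInj at hg
  push Not at hg
  obtain ⟨a, b, hab, hgab, hne⟩ := hg
  unfold PG PD
  rw [map_mul, map_prod]
  have : ∏ p ∈ univ.filter (fun p : B × B => p.1 ≠ p.2 ∧ vx p.1 = vx p.2 ∧ g p.1 = g p.2),
      rename cl (X p.1 - X p.2 : MvPolynomial B Λ) = 0 := by
    refine Finset.prod_eq_zero (i := (a, b)) ?_ ?_
    · simp only [mem_filter, mem_univ, true_and]
      refine ⟨hne, ?_, hgab⟩
      rw [← h.vx_cl a, ← h.vx_cl b, hab]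
    · simp [hab]
  rw [this, zero_mul]

/-- The constant colouring gives the discriminant: it dies on the diagonal as soon as some
cluster has two elements. -/
theorem psi_PG_perm {vx : B → I} {lam : B → ℤ} {cl : B → B}
    (src tgt : E → Option I) (t : E → Λ) (g : B → ℕ) (h : IsCl vx lam cl)
    (σ : Equiv.Perm B) (hσ : ∀ b, cl (σ b) = cl b) :
    rename cl (PG vx src tgt t (g ∘ σ)) = rename cl (PG vx src tgt t g) := by
  have hv : ∀ b, vx (σ b) = vx b := fun b => by rw [← h.vx_cl (σ b), hσ, h.vx_cl]
  rw [← rename_PG_comp vx src tgt t g σ hv, rename_rename]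
  congr 2
  funext b
  exact (hσ b).symm

theorem xiP_ne_zero [Nontrivial Λ] (m : Λ) {r s : Option B} (h : r ≠ s) :
    xiP m r s ≠ 0 := by
  intro h0
  have key : ∀ b : B, coeff (Finsupp.single b 1) (xiP m r s) =
      (if s = some b then 1 else 0) - (if r = some b then (1 : Λ) else 0) := by
    intro b
    have hx : ∀ r : Option B, coeff (Finsupp.single b 1) (xx Λ r) =
        if r = some b then (1 : Λ) else 0 := by
      intro r
      cases r with
      | none => simp
      | some c =>
        simp only [xx_some, Option.some.injEq]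
        rw [coeff_X]
        congr 1
        rw [Finsupp.single_left_inj one_ne_zero]
    have hC : coeff (Finsupp.single b 1) (C m : MvPolynomial B Λ) = 0 := by
      rw [coeff_C, if_neg]
      intro h; exact one_ne_zero (Finsupp.single_eq_zero.1 h.symm)
    unfold xiP
    rw [coeff_add, coeff_sub, hx, hx, hC, add_zero]
  cases r with
  | some b =>
    have := key b
    rw [h0, coeff_zero, if_neg (fun hs => h hs.symm), if_pos rfl] at this
    simp at this
  | none =>
    cases s with
    | none => exact h rfl
    | some b =>
      have := key b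
      rw [h0, coeff_zero, if_pos rfl, if_neg (by simp)] at this
      simp at this

theorem psi_PG_ne_zero [IsDomain Λ] {vx : B → I} {lam : B → ℤ} {cl : B → B}
    (h : IsCl vx lam cl)
    (src tgt : E → Option I) (t : E → Λ) (ht : ∀ a, src a = tgt a → t a ≠ 0)
    {g : B → ℕ} (hg : ClInj cl g) :
    rename cl (PG vx src tgt t g) ≠ 0 := by
  unfold PG PD PX
  rw [map_mul, map_prod, map_prod]
  refine mul_ne_zero ?_ ?_
  · rw [Finset.prod_ne_zero_iff]
    rintro ⟨a, b⟩ hp
    simp only [mem_filter, mem_univ, true_and] at hp
    rw [map_sub, rename_X, rename_X, sub_ne_zero]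
    intro hX
    have := X_injective hX
    exact hp.1 (hg a b this hp.2.2)
  · rw [Finset.prod_ne_zero_iff]
    intro a _
    rw [map_prod, Finset.prod_ne_zero_iff]
    rintro ⟨r, s⟩ hq
    simp only [mem_filter, mem_univ, true_and] at hq
    rw [rename_xiP]
    by_cases hrs : Option.map cl r = Option.map cl s
    · rw [hrs]
      unfold xiP
      rw [sub_self, zero_add]
      intro hC
      have h0 : t a = 0 := by rwa [C_eq_zero] at hC
      refine ht a ?_ h0
      rw [← hq.1, ← hq.2.1]
      have hvx : ∀ r : Option B, Option.map vx (Option.map cl r) = Option.map vx r := by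
        intro r; cases r <;> simp [h.vx_cl]
      rw [← hvx r, hrs, hvx]
    · exact xiP_ne_zero _ hrs

end Vale.Agent.P291.H216
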