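import Vale.Agent.P291.QBlk
import Vale.Agent.P291.IIaBlk
import Vale.Agent.P291.H216.Kap

/-!
# P291: the polynomials `D * kap g` on a cluster diagonal
-/

set_option linter.unusedSectionVars false

open MvPolynomial

namespace Vale.Agent.P291

namespace H216

variable {I E B Λ : Type*} [Fintype E] [DecidableEq I] [Fintype B] [DecidableEq B] [CommRing Λ]
  [IsDomain Λ]
variable (Q : QD I E B Λ)

theorem gO_comp (g : B → ℕ) (σ : B → B) (r : Option B) :
    gO (g ∘ σ) r = gO g (r.map σ) := by
  cases r <;> rfl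

theorem rename_PG_comp (g : B → ℕ) {σ : Equiv.Perm B} (hσ : σ ∈ Q.W) :
    rename σ (PG Q (g ∘ σ)) = PG Q g := by
  unfold PG
  rw [map_mul]
  congr 1
  · unfold PD
    rw [map_prod]
    refine Finset.prod_equiv (Equiv.prodCongr σ σ) ?_ ?_
    · intro p
      simp [QD.Prs, (mem_W Q).1 hσ]
    · intro p _
      simp
  · unfold QD.numG
    rw [map_prod]
    refine Finset.prod_equiv (wtEquiv σ) ?_ ?_
    · intro p
      rw [Finset.mem_filter, Finset.mem_filter, wtEquiv_mem Q hσ]
      have h1 : (wtEquiv σ p).2.2.elim 0 g = p.2.2.elim 0 (g ∘ σ) := by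
        rcases p with ⟨a, r, _ | s⟩ <;> rfl
      rw [h1]
      rfl
    · intro p _
      exact rename_xi Q σ p

theorem psi_PG_eq_zero {lam : B → ℤ} {cl : B → B} (h : IsCl Q.vx lam cl)
    {g : B → ℕ} (hg : ¬ ClInj cl g) : rename cl (PG Q g) = 0 := by
  unfold ClInj at hg
  push Not at hg
  obtain ⟨a, b, hab, hgab, hne⟩ := hg
  unfold PG PD
  rw [map_mul, map_prod]
  have : ∏ p ∈ Q.Prs.filter (fun p => p.1 ≠ p.2 ∧ g p.1 = g p.2),
      rename cl (X p.1 - X p.2 : SS B Λ) = 0 := by
    refine Finset.prod_eq_zero (i := (a, b)) ?_ ?_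
    · simp only [QD.Prs, Finset.mem_filter, Finset.mem_univ, true_and]
      refine ⟨?_, hne, hgab⟩
      rw [← h.vx_cl a, ← h.vx_cl b, hab]
    · simp [hab]
  rw [this, zero_mul]

/-- The discriminant dies on the diagonal if two boxes are glued. -/
theorem psi_D_eq_zero {lam : B → ℤ} {cl : B → B} (h : IsCl Q.vx lam cl)
    {a : B} (ha : cl a ≠ a) : rename cl (Q.D : SS B Λ) = 0 := by
  unfold QD.D
  rw [map_prod]
  refine Finset.prod_eq_zero (i := (cl a, a)) ?_ ?_
  · simp only [QD.Prs, Finset.mem_filter, Finset.mem_univ, true_and]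
    exact ⟨h.vx_cl a, ha⟩
  · simp [h.cl_cl]

theorem mem_W_of_cl {lam : B → ℤ} {cl : B → B} (h : IsCl Q.vx lam cl) {σ : Equiv.Perm B}
    (hσ : ∀ b, cl (σ b) = cl b) : σ ∈ Q.W :=
  (mem_W Q).2 fun b => by rw [← h.vx_cl (σ b), hσ, h.vx_cl]

theorem psi_PG_perm {lam : B → ℤ} {cl : B → B} (h : IsCl Q.vx lam cl)
    (g : B → ℕ) (σ : Equiv.Perm B) (hσ : ∀ b, cl (σ b) = cl b) :
    rename cl (PG Q (g ∘ σ)) = rename cl (PG Q g) := by
  rw [← rename_PG_comp Q g (mem_W_of_cl Q h hσ), rename_rename]
  congr 2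
  funext b
  exact (hσ b).symm

/-- Two full colourings differ by a permutation preserving the clusters. -/
theorem exists_perm_full {cl : B → B} {g g' : B → ℕ} (hg : ClInj cl g) (hg' : ClInj cl g')
    (hf : ∀ c, (fib cl c).image g = Finset.range (fib cl c).card)
    (hf' : ∀ c, (fib cl c).image g' = Finset.range (fib cl c).card) :
    ∃ σ : Equiv.Perm B, (∀ b, cl (σ b) = cl b) ∧ g = g' ∘ σ := by
  classical
  have key : ∀ b, ∃ y, cl y = cl b ∧ g' y = g b := by
    intro b
    have h1 : g b ∈ (fib cl (cl b)).image g := Finset.mem_image.2 ⟨b, by simp, rfl⟩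
    rw [hf, ← hf'] at h1
    obtain ⟨y, hy, hy'⟩ := Finset.mem_image.1 h1
    exact ⟨y, by simpa using hy, hy'⟩
  choose σ hσ hσ' using key
  have hinj : Function.Injective σ := by
    intro a b hab
    refine hg a b ?_ ?_
    · rw [← hσ a, hab, hσ b]
    · rw [← hσ' a, hab, hσ' b]
  refine ⟨Equiv.ofBijective σ ⟨hinj, Finite.surjective_of_injective hinj⟩, hσ, ?_⟩
  funext b
  exact (hσ' b).symm

theorem xo_sub_ne_zero (m : Λ) {r s : Option B} (h : r ≠ s) :
    (xo Λ s - xo Λ r + C m : SS B Λ) ≠ 0 := by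
  intro h0
  have hx : ∀ (r : Option B) (b : B), coeff (Finsupp.single b 1) (xo Λ r) =
      if r = some b then (1 : Λ) else 0 := by
    intro r b
    cases r with
    | none => simp [xo]
    | some c =>
      simp only [xo, Option.elim, Option.some.injEq]
      rw [coeff_X]
      congr 1
      rw [Finsupp.single_left_inj one_ne_zero]
  have key : ∀ b : B, (if s = some b then 1 else 0) - (if r = some b then (1 : Λ) else 0) = 0 := by
    intro b
    have hC : coeff (Finsupp.single b 1) (C m : SS B Λ) = 0 := by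
      rw [coeff_C, if_neg]
      intro h; exact one_ne_zero (Finsupp.single_eq_zero.1 h.symm)
    have := congrArg (coeff (Finsupp.single b 1)) h0
    rwa [coeff_add, coeff_sub, hx, hx, hC, add_zero, coeff_zero] at this
  cases r with
  | some b =>
    have := key b
    rw [if_neg (fun hs => h hs.symm), if_pos rfl] at this
    simp at this
  | none =>
    cases s with
    | none => exact h rfl
    | some b =>
      have := key b
      rw [if_pos rfl, if_neg (by simp)] at this
      simp at this

theorem psi_PG_ne_zero (hQ : Q.NonzeroLoops) {lam : B → ℤ} {cl : B → B} (h : IsCl Q.vx lam cl)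
    {g : B → ℕ} (hg : ClInj cl g) : rename cl (PG Q g) ≠ 0 := by
  unfold PG PD QD.numG
  rw [map_mul, map_prod, map_prod]
  refine mul_ne_zero ?_ ?_
  · rw [Finset.prod_ne_zero_iff]
    rintro ⟨a, b⟩ hp
    simp only [QD.Prs, Finset.mem_filter, Finset.mem_univ, true_and] at hp
    rw [map_sub, rename_X, rename_X, sub_ne_zero]
    intro hX
    have := X_injective hX
    exact hp.2.1 (hg a b this hp.2.2)
  · rw [Finset.prod_ne_zero_iff]
    rintro ⟨a, r, s⟩ hq
    simp only [QD.Wt, Finset.mem_filter, Finset.mem_univ, true_and] at hq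
    have e1 : rename cl (Q.xi (a, r, s)) =
        xo Λ (s.map cl) - xo Λ (some (cl r)) + C (Q.t a) := by
      cases s <;> simp [QD.xi, xo]
    rw [e1]
    by_cases hrs : some (cl r) = s.map cl
    · rw [hrs, sub_self, zero_add, Ne, C_eq_zero]
      refine hQ a ?_
      rw [← hq.1.2, ← hq.1.1]
      cases s with
      | none => simp at hrs
      | some s =>
        simp only [Option.map_some, Option.some.injEq] at hrs
        simp only [QD.vo, Option.map_some, Option.some.injEq]
        rw [← h.vx_cl s, ← hrs, h.vx_cl]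
    · exact xo_sub_ne_zero _ hrs

end H216

end Vale.Agent.P291
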