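import Vale.Agent.P291.H216.Psi
import Vale.Agent.P291.TBlk

/-!
# P291: tuples of subsets with total weight zero and colourings
-/

set_option linter.unusedSectionVars false

open MvPolynomial

namespace Vale.Agent.P291

namespace H216

section

variable {B : Type*} [Fintype B] [DecidableEq B]

/-- In a tuple of total weight `0` in which exactly one set does not contain `none`, the
complements form a partition. -/
theorem exists_jj {k : ℕ} (V : Fin k → Finset (Option B)) (j0 : Fin k)
    (hn : ∀ j, none ∉ V j ↔ j0 = j) (h0 : ∑ j, lamV (V j) = 0) :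
    ∃ jj : Option B → Fin k, (∀ o j, o ∉ V j ↔ jj o = j) ∧ jj none = j0 := by
  have key : ∀ b : B, ∃ j1 : Fin k, ∀ j, some b ∉ V j ↔ j1 = j := by
    intro b
    have h1 := congrFun h0 b
    rw [Finset.sum_apply] at h1
    simp only [lamV, Pi.zero_apply, Finset.sum_sub_distrib] at h1
    have e1 : ∀ o : Option B, ∑ j, (if o ∈ V j then (1 : ℤ) else 0) =
        k - ((Finset.univ.filter fun j => o ∉ V j).card : ℤ) := by
      intro o
      have h2 := Finset.card_filter_add_card_filter_not (s := (Finset.univ : Finset (Fin k)))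
        (fun j => o ∈ V j)
      rw [Finset.sum_boole]
      rw [Finset.card_univ, Fintype.card_fin] at h2
      push_cast [← h2]
      ring
    rw [e1, e1] at h1
    have e2 : (Finset.univ.filter fun j => (none : Option B) ∉ V j) = {j0} := by
      ext j
      simp only [Finset.mem_filter, Finset.mem_univ, true_and, Finset.mem_singleton, hn]
      exact eq_comm
    rw [e2, Finset.card_singleton] at h1
    have h3 : (Finset.univ.filter fun j => some b ∉ V j).card = 1 := by
      push_cast at h1
      omega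
    obtain ⟨j1, hj1⟩ := Finset.card_eq_one.1 h3
    refine ⟨j1, fun j => ?_⟩
    have : j ∈ (Finset.univ.filter fun j => some b ∉ V j) ↔ j ∈ ({j1} : Finset (Fin k)) := by
      rw [hj1]
    simp only [Finset.mem_filter, Finset.mem_univ, true_and, Finset.mem_singleton] at this
    rw [this]; exact eq_comm
  choose f hf using key
  refine ⟨fun o => o.elim j0 f, ?_, rfl⟩
  rintro (_ | b) j
  · exact hn j
  · exact hf b j

/-- The colouring of a tuple. -/
def gcol {k : ℕ} (V : Fin k → Finset (Option B)) : B → ℕ :=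
  fun b => ∑ j : Fin k, if some b ∈ V j then 0 else (k - 1 - (j : ℕ))

theorem gO_gcol {k : ℕ} (V : Fin k → Finset (Option B)) (jj : Option B → Fin k)
    (hV : ∀ o j, o ∉ V j ↔ jj o = j) (hn : (jj none : ℕ) = k - 1) (o : Option B) :
    gO (gcol V) o = k - 1 - (jj o : ℕ) := by
  cases o with
  | none => simp [hn]
  | some b =>
    simp only [gO_some, gcol]
    rw [Finset.sum_eq_single (jj (some b))]
    · rw [if_neg]
      exact (hV (some b) _).2 rfl
    · intro j _ hj
      rw [if_pos]
      by_contra h
      exact hj ((hV (some b) j).1 h).symm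
    · intro h; exact absurd (Finset.mem_univ _) h

theorem gO_gcol_inj {k : ℕ} (V : Fin k → Finset (Option B)) (jj : Option B → Fin k)
    (hV : ∀ o j, o ∉ V j ↔ jj o = j) (hn : (jj none : ℕ) = k - 1) (o o' : Option B) :
    gO (gcol V) o = gO (gcol V) o' ↔ jj o = jj o' := by
  rw [gO_gcol V jj hV hn, gO_gcol V jj hV hn]
  have h1 := (jj o).2
  have h2 := (jj o').2
  constructor
  · intro h
    apply Fin.ext
    omega
  · intro h; rw [h]

theorem lo_le (mu : B → ℤ) (o : Option B) : lo mu ≤ ext mu o :=
  Finset.inf'_le _ (Finset.mem_univ o)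

theorem le_hi (mu : B → ℤ) (o : Option B) : ext mu o ≤ hi mu :=
  Finset.le_sup' _ (Finset.mem_univ o)

theorem lo_nonpos (mu : B → ℤ) : lo mu ≤ 0 := lo_le mu none

theorem hi_eq_one {mu : B → ℤ} (h1 : ∀ b, mu b ≤ 1) (h : ∃ b, mu b = 1) : hi mu = 1 := by
  apply le_antisymm
  · refine Finset.sup'_le _ _ ?_
    rintro (_ | b) _
    · exact zero_le_one
    · exact h1 b
  · obtain ⟨b, hb⟩ := h
    rw [← hb]
    exact le_hi mu (some b)

theorem mem_lv (mu : B → ℤ) (j : Fin (len mu)) (o : Option B) :
    o ∈ lv mu j ↔ lo mu + 1 + (j : ℤ) ≤ ext mu o := by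
  simp [lv]

theorem notMem_lv {mu : B → ℤ} (hhi : hi mu = 1) (j : Fin (len mu)) (o : Option B) :
    o ∉ lv mu j ↔ ext mu o ≤ -((len mu - 1 - (j : ℕ) : ℕ) : ℤ) := by
  rw [mem_lv]
  have hl := lo_nonpos mu
  have hj := j.2
  have hk : (len mu : ℤ) = 1 - lo mu := by
    unfold len; rw [hhi]; omega
  omega

end

variable {I E B Λ : Type*} [Fintype E] [DecidableEq I] [Fintype B] [DecidableEq B] [CommRing Λ]
  [IsDomain Λ]
variable (Q : QD I E B Λ)

/-- Weights with entries at most one and charge zero. -/
def Om : Set (B → ℤ) := {mu | (∀ b, mu b ≤ 1) ∧ ∀ i, Q.chg i mu = 0}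

theorem sum_eq_zero_of_chg {mu : B → ℤ} (h : ∀ i, Q.chg i mu = 0) : ∑ b, mu b = 0 := by
  rw [← Finset.sum_fiberwise_of_maps_to (g := Q.vx) (t := Finset.univ.image Q.vx)
    (fun b _ => Finset.mem_image_of_mem _ (Finset.mem_univ b))]
  refine Finset.sum_eq_zero fun i _ => ?_
  exact h i

theorem exists_one {mu : B → ℤ} (h : mu ∈ Om Q) (h0 : mu ≠ 0) : ∃ b, mu b = 1 := by
  by_contra hne
  push Not at hne
  have hle : ∀ b, mu b ≤ 0 := by
    intro b
    have h1 := h.1 b
    have h2 := hne b
    omega
  apply h0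
  funext b
  have h2 := h.2 (Q.vx b)
  unfold QD.chg at h2
  rw [Finset.sum_eq_zero_iff_of_nonpos (fun b _ => hle b)] at h2
  exact h2 b (by simp)

theorem card_of_vertex {P R : B → Prop} [DecidablePred P] [DecidablePred R]
    (h : ∀ i, (Finset.univ.filter fun b => Q.vx b = i ∧ P b).card =
      (Finset.univ.filter fun b => Q.vx b = i ∧ R b).card) :
    (Finset.univ.filter fun b => P b).card = (Finset.univ.filter fun b => R b).card := by
  have key : ∀ (P : B → Prop) [DecidablePred P], (Finset.univ.filter fun b => P b).card =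
      ∑ i ∈ Finset.univ.image Q.vx, (Finset.univ.filter fun b => Q.vx b = i ∧ P b).card := by
    intro P _
    rw [Finset.card_eq_sum_card_fiberwise (f := Q.vx) (t := Finset.univ.image Q.vx)
      (fun b _ => Finset.mem_coe.2 (Finset.mem_image_of_mem _ (Finset.mem_univ b)))]
    refine Finset.sum_congr rfl fun i _ => ?_
    rw [Finset.filter_filter]
    congr 1
    refine Finset.filter_congr fun b _ => ?_
    exact and_comm
  rw [key P, key R]
  exact Finset.sum_congr rfl fun i _ => h i

/-- Weights with entries at most one and the same number of entries `≤ -κ` at every vertex are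
conjugate. -/
theorem conj_of_card {mu lam : B → ℤ} (hm : ∀ b, mu b ≤ 1) (hl : ∀ b, lam b ≤ 1)
    (h : ∀ (i : I) (κ : ℕ), (Finset.univ.filter fun b => Q.vx b = i ∧ mu b ≤ -(κ : ℤ)).card =
      (Finset.univ.filter fun b => Q.vx b = i ∧ lam b ≤ -(κ : ℤ)).card) :
    ∃ σ ∈ Q.W, mu = lact σ lam := by
  have hval : ∀ (i : I) (c : ℤ),
      (Finset.univ.filter fun b => Q.vx b = i ∧ mu b = c).card =
      (Finset.univ.filter fun b => Q.vx b = i ∧ lam b = c).card := by
    intro i c
    have split : ∀ (nu : B → ℤ) (c : ℤ),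
        (Finset.univ.filter fun b => Q.vx b = i ∧ nu b = c).card +
        (Finset.univ.filter fun b => Q.vx b = i ∧ nu b ≤ c - 1).card =
        (Finset.univ.filter fun b => Q.vx b = i ∧ nu b ≤ c).card := by
      intro nu c
      rw [← Finset.card_union_of_disjoint]
      · congr 1
        ext b
        simp only [Finset.mem_union, Finset.mem_filter, Finset.mem_univ, true_and]
        constructor
        · rintro (⟨h1, h2⟩ | ⟨h1, h2⟩)
          · exact ⟨h1, h2.le⟩
          · exact ⟨h1, by omega⟩
        · rintro ⟨h1, h2⟩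
          by_cases h3 : nu b = c
          · exact Or.inl ⟨h1, h3⟩
          · exact Or.inr ⟨h1, by omega⟩
      · rw [Finset.disjoint_left]
        intro b hb hb'
        simp only [Finset.mem_filter, Finset.mem_univ, true_and] at hb hb'
        omega
    have hall : ∀ c : ℤ, (Finset.univ.filter fun b => Q.vx b = i ∧ mu b ≤ c).card =
        (Finset.univ.filter fun b => Q.vx b = i ∧ lam b ≤ c).card := by
      intro c
      by_cases hc : c ≤ 0
      · obtain ⟨κ, hκ⟩ : ∃ κ : ℕ, c = -(κ : ℤ) := ⟨(-c).toNat, by omega⟩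
        rw [hκ]; exact h i κ
      · have e : ∀ (nu : B → ℤ), (∀ b, nu b ≤ 1) →
            (Finset.univ.filter fun b => Q.vx b = i ∧ nu b ≤ c) =
            (Finset.univ.filter fun b => Q.vx b = i) := by
          intro nu hnu
          refine Finset.filter_congr fun b _ => ?_
          have := hnu b
          constructor
          · exact fun h => h.1
          · exact fun h => ⟨h, by omega⟩
        rw [e mu hm, e lam hl]
    have h1 := split mu c
    have h2 := split lam c
    have h3 := hall c
    have h4 := hall (c - 1)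
    omega
  have hcard : ∀ a : I × ℤ, Fintype.card {b // (Q.vx b, mu b) = a} =
      Fintype.card {b // (Q.vx b, lam b) = a} := by
    rintro ⟨i, c⟩
    rw [Fintype.card_subtype, Fintype.card_subtype]
    simpa [Prod.ext_iff] using hval i c
  let e : ∀ a : I × ℤ, {b // (Q.vx b, mu b) = a} ≃ {b // (Q.vx b, lam b) = a} :=
    fun a => Fintype.equivOfCardEq (hcard a)
  let σ : B ≃ B := Equiv.ofFiberEquiv (f := fun b => (Q.vx b, mu b))
    (g := fun b => (Q.vx b, lam b)) e
  have hσ : ∀ b, (Q.vx (σ b), lam (σ b)) = (Q.vx b, mu b) := fun b =>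
    Equiv.ofFiberEquiv_map (f := fun b => (Q.vx b, mu b)) (g := fun b => (Q.vx b, lam b)) e b
  have hW : (σ : Equiv.Perm B) ∈ Q.W :=
    (mem_W Q).2 fun b => congrArg Prod.fst (hσ b)
  refine ⟨(σ : Equiv.Perm B)⁻¹, Q.W.inv_mem hW, ?_⟩
  funext b
  simp only [lact, inv_inv]
  exact (congrArg Prod.snd (hσ b)).symm

/-- `τ ∈ Dec` is insensitive to moving the entries inside clusters, after restriction to the
diagonal. -/
theorem Dec_psi {cl : B → B} {k : ℕ} {τ : (Fin k → Finset (Option B)) → SS B Λ}
    (hτ : τ ∈ Q.Dec k) (w : Fin k → Equiv.Perm B) (hw : ∀ j, w j ∈ Q.W)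
    (hcl : ∀ j b, cl (w j b) = cl b) (L : Fin k → Finset (Option B)) :
    rename cl (τ (fun j => vact (w j) (L j))) = rename cl (τ L) := by
  unfold QD.Dec at hτ
  induction hτ using Submodule.span_induction with
  | mem τ hτ =>
    obtain ⟨r, _, F, hF, rfl⟩ := hτ
    simp only [map_mul, map_prod]
    congr 1
    refine Finset.prod_congr rfl fun j _ => ?_
    rw [hF j (w j) (hw j), rename_rename]
    congr 2
    funext b
    exact hcl j b
  | zero => simp
  | add x y _ _ hx hy => simp only [Pi.add_apply, map_add, hx, hy]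
  | smul c x _ hx => simp only [Pi.smul_apply, map_smul, hx]

theorem chg_lact {σ : Equiv.Perm B} (hσ : σ ∈ Q.W) (lam : B → ℤ) (i : I) :
    Q.chg i (lact σ lam) = Q.chg i lam := by
  unfold QD.chg
  symm
  refine Finset.sum_equiv σ ?_ ?_
  · intro b
    simp [(mem_W Q).1 hσ]
  · intro b _
    exact (lact_apply σ lam b).symm

theorem chg_sum {ι : Type*} (s : Finset ι) (f : ι → B → ℤ) (i : I) :
    Q.chg i (∑ j ∈ s, f j) = ∑ j ∈ s, Q.chg i (f j) := by
  unfold QD.chg
  simp only [Finset.sum_apply]
  rw [Finset.sum_comm]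

end H216

end Vale.Agent.P291
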